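import Vale.Agent.P365.T2.H259.OneDefs
import Vale.Agent.P365.T2.Stat968Fin
import Vale.Agent.P365.T2.H862.BadT
import Vale.Agent.P365.T2.H216.ResSplit

/-!
# P365-T2, field `res` of ONE over the states of 629 (helper863)

`SmX` (259: average of the three static terms of the truncated family, bad set `ZB`) is at most a
constant of `lam, E, ε1, ε2` times `Loss + Err`:

* per label 968's `res_all` (resampling of the strong part, EdgeLaw on the moving sites);
* 216's `res_split` (moving part = half of the loss, static part = static share);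
* 862's `bad_stage` (bad sites ≤ static share + `CBE` off-resonant energy);
* the static share of the truncated family is at most `4 ^ J * EM u`.
-/

set_option linter.all false

namespace P365T2.H863

open P365L hiding Adm
open P365O P365T1 P365L.TL P365T2.H179 P365T2.H905 P365L.T2.Path MeasureTheory Set
open Vale.Agent.P365.J376 P365T2.H213 P365T2.H320U P365T2.X629 P365T2.H862 P365T2.H259
open P365L.T2.X968 (ZW JSW MSW LamSW LossW BadW CJ CLam CJ_nonneg CLam_nonneg res_all JSW_le)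
open P365T2.H24 P365T2.H216 P365T2.H862.BadT

/-! ### pathwise -/

section path

variable {ι κ : Type*} [Fintype ι] [DecidableEq ι] [Fintype κ] {A : Matrix ι ι ℝ} {E lam : ℝ}
  {F : κ → ι → ℝ} {M : Finset ι} {W : ι → ℂ} {ε1 ε2 : ℝ}

open Classical in
/-- the moving sites -/
noncomputable def Mw (w : ι → ℝ) : Finset ι := Finset.univ.filter fun x => w x ≠ 0

theorem mem_Mw {w : ι → ℝ} {x : ι} : x ∈ Mw w ↔ w x ≠ 0 := by
  classical
  unfold Mw
  simp

theorem ZB_eq (w : ι → ℝ) (W : ι → ℂ) : ZB lam A E w W = ZW A E lam (Mw w) W := by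
  classical
  ext x
  unfold ZW
  rw [mem_ZB, Finset.mem_filter, mem_Mw]
  simp

theorem JV_eq_JSW : JV A F (ZW A E lam M W) ε1 W = JSW A E lam M F ε1 W := by
  classical
  unfold JV JSW
  exact Finset.sum_congr rfl fun j _ => Finset.sum_congr rfl fun u _ =>
    Finset.sum_congr rfl fun x _ => ite_cg Iff.rfl rfl

theorem MV_eq_MSW : MV A F (ZW A E lam M W) W = MSW A E lam M F W := by
  classical
  unfold MV MSW
  exact Finset.sum_congr rfl fun j _ => Finset.sum_congr rfl fun x _ => ite_cg Iff.rfl rfl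

theorem LamV_eq_LamSW : LamV A F (ZW A E lam M W) ε1 ε2 W = LamSW A E lam M F ε1 ε2 W := by
  classical
  unfold LamV LamSW
  refine Finset.sum_congr rfl fun j _ => Finset.sum_congr rfl fun w _ =>
    Finset.sum_congr rfl fun x _ => ite_cg Iff.rfl ?_
  unfold midV
  exact congrArg₂ (· * ·) rfl (congrArg₂ (· * ·) rfl
    (Finset.sum_congr rfl fun u _ => ite_cg Iff.rfl rfl))

/-- constant of the three terms -/
noncomputable def KS (ε1 ε2 : ℝ) : ℝ := 1 + 1 / ε1 + 1 / (ε1 * ε2)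

theorem KS_pos (h1 : 0 < ε1) (h2 : 0 < ε2) : 0 < KS ε1 ε2 := by
  unfold KS
  positivity

theorem SmV_le (hA : A.IsSymm) (hW : ∀ x, (W x).im < 0) (h1 : 0 < ε1) (h2 : 0 < ε2)
    (w : ι → ℝ) : SmV A F (ZB lam A E w W) ε1 ε2 W ≤
      KS ε1 ε2 * (JSW A E lam (Mw w) F ε1 W + MSW A E lam (Mw w) F W +
        LamSW A E lam (Mw w) F ε1 ε2 W) := by
  have hJ := JV_nonneg hA hW F (ZB lam A E w W) ε1
  have hM := MV_nonneg hA hW F (ZB lam A E w W)
  have hL := LamV_nonneg hA hW F (ZB lam A E w W) ε1 ε2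
  unfold SmV
  rw [ZB_eq] at hJ hM hL ⊢
  rw [JV_eq_JSW] at hJ ⊢
  rw [MV_eq_MSW] at hM ⊢
  rw [LamV_eq_LamSW] at hL ⊢
  set a := JSW A E lam (Mw w) F ε1 W
  set b := MSW A E lam (Mw w) F W
  set c := LamSW A E lam (Mw w) F ε1 ε2 W
  have p1 : 0 ≤ 1 / ε1 := by positivity
  have p2 : 0 ≤ 1 / (ε1 * ε2) := by positivity
  have e1 : a / ε1 = 1 / ε1 * a := by ring
  have e2 : c / (ε1 * ε2) = 1 / (ε1 * ε2) * c := by ring
  rw [e1, e2]
  unfold KS
  nlinarith [mul_nonneg p1 hM, mul_nonneg p1 hL, mul_nonneg p2 hJ, mul_nonneg p2 hM]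

/-- the loss of the moving sites is at most the whole sum -/
theorem LossW_le_resS (hA : A.IsSymm) (hW : ∀ x, (W x).im < 0) :
    LossW A M F W ≤ resS A F W := by
  unfold LossW resS
  have h1 : ∑ x, (-(W x).im) * ∑ k, mm A W x * muf A W (F k) x ^ 2 =
      ∑ k, ∑ x, (-(W x).im) * (mm A W x * muf A W (F k) x ^ 2) := by
    rw [Finset.sum_comm]
    exact Finset.sum_congr rfl fun x _ => by rw [Finset.mul_sum]
  rw [h1]
  refine Finset.sum_le_sum fun k _ => Finset.sum_le_sum_of_subset_of_nonneg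
    (Finset.subset_univ _) fun x _ _ => ?_
  exact mul_nonneg (by linarith [hW x]) (mul_nonneg (mm_pos hA hW x).le (sq_nonneg _))

/-- the content of the bad moving sites is at most the energy of the bad set -/
theorem BadW_le_BadV (hA : A.IsSymm) (hW : ∀ x, (W x).im < 0) (w : ι → ℝ) :
    BadW A E lam (Mw w) F W ≤ BadV A F (ZB lam A E w W) W := by
  classical
  have h0 : ∀ x k, 0 ≤ (-(W x).im) * Mf A W (F k) x := fun x k =>
    mul_nonneg (by linarith [hW x]) (Mf_nonneg hW _ _)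
  have h1 : BadV A F (ZB lam A E w W) W =
      ∑ k, ∑ x, if x ∈ ZB lam A E w W then (-(W x).im) * Mf A W (F k) x else 0 := by
    unfold BadV
    rw [Finset.sum_comm]
    rw [← Finset.univ_inter (ZB lam A E w W), ← Finset.sum_ite_mem]
    refine Finset.sum_congr rfl fun x _ => ?_
    rw [Finset.univ_inter]
    by_cases hx : x ∈ ZB lam A E w W
    · simp only [if_pos hx]
      rw [eng_eq_Mf hA hW, Finset.mul_sum]
    · simp only [if_neg hx, Finset.sum_const_zero]
  rw [h1]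
  unfold BadW
  refine Finset.sum_le_sum fun k _ => ?_
  have h2 : ∑ x ∈ Mw w, (if pz A W E x ∈ GdL lam then 0 else (-(W x).im) * Mf A W (F k) x) ≤
      ∑ x ∈ Mw w, (if x ∈ ZB lam A E w W then (-(W x).im) * Mf A W (F k) x else 0) := by
    refine Finset.sum_le_sum fun x hx => ?_
    by_cases hg : pz A W E x ∈ GdL lam
    · rw [if_pos hg]
      split_ifs
      · exact h0 x k
      · exact le_rfl
    · rw [if_neg hg, if_pos (mem_ZB.2 (Or.inr hg))]
  refine (le_trans ?_ h2).trans (Finset.sum_le_sum_of_subset_of_nonneg (Finset.subset_univ _)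
    fun x _ _ => ?_)
  · exact le_of_eq (Finset.sum_congr rfl fun x _ => ite_cg Iff.rfl rfl)
  · split_ifs
    · exact h0 x k
    · exact le_rfl

theorem adm_resS (hA : A.IsSymm) (F : κ → ι → ℝ) : Adm fun W : ι → ℂ => resS A F W := by
  unfold resS
  refine Adm.sum _ fun x _ => (adm_e x).mul (Adm.sum _ fun k _ => (adm_mm hA x).mul ?_)
  have h := (adm_muf hA (F k) x).mul (adm_muf hA (F k) x)
  have e : (fun W : ι → ℂ => muf A W (F k) x * muf A W (F k) x) =
      fun W => muf A W (F k) x ^ 2 := by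
    funext W
    rw [pow_two]
  rw [e] at h
  exact h

end path

/-! ### averages -/

section av

variable {ι κ : Type*} [Fintype ι] [DecidableEq ι] [Fintype κ] {A : Matrix ι ι ℝ} {Λ : Type*}
  [Fintype Λ] {p : Λ → ℝ} {ν : Λ → Measure ℝ} {E lam : ℝ} {F : κ → ι → ℝ} {ε1 ε2 : ℝ}

/-- **resampling, averaged over labels and potentials** -/
theorem AvG_SmV_le (hA : A.IsSymm) {R : ℝ} (h : Laws p ν R) {e w : (ι → Λ) → ι → ℝ}
    (he : ∀ l x, 0 < e l x) {a b : ℝ} (hlaw : ∀ l x, w l x ≠ 0 → EdgeLaw lam a b (ν (l x)))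
    (h1 : 0 < ε1) (h2 : 0 < ε2) :
    AvG p ν E e (fun l V => SmV A F (ZB lam A E (w l) V) ε1 ε2 V) ≤
      KS ε1 ε2 * (CJ lam a b ε1 + 1 + CLam lam a b ε1 ε2) *
        (AvG p ν E e (fun _ V => resS A F V) +
          AvG p ν E e (fun l V => BadV A F (ZB lam A E (w l) V) V)) := by
  haveI := h.prob
  have hK := KS_pos h1 h2
  have hC : 0 ≤ CJ lam a b ε1 + 1 + CLam lam a b ε1 ε2 := by
    have c1 := CJ_nonneg (lam := lam) (al := a) (be := b) h1
    have c2 := CLam_nonneg (lam := lam) (al := a) (be := b) h1 h2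
    linarith
  unfold AvG
  rw [← Finset.sum_add_distrib, Finset.mul_sum]
  refine Finset.sum_le_sum fun l _ => ?_
  rw [← mul_add, mul_left_comm]
  refine mul_le_mul_of_nonneg_left ?_ (h.w0 l)
  have hl : ∀ x ∈ Mw (w l), EdgeLaw lam a b (ν (l x)) := fun x hx => hlaw l x (mem_Mw.1 hx)
  have hsupp : ∀ x, ν (l x) (Set.Icc (-R) R)ᶜ = 0 := fun x => h.supp _
  have iJ := P365L.T2.X968.integrable_JSW (ν := fun x => ν (l x)) (F := F) (E := E) (ε1 := ε1)
    hA (he l) hl
  have iM := P365L.T2.X968.integrable_MSW (ν := fun x => ν (l x)) (F := F) (E := E)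
    hA (he l) hl
  have iL := P365L.T2.X968.integrable_LamSW (ν := fun x => ν (l x)) (F := F) (E := E) (ε1 := ε1)
    (ε2 := ε2) hA (he l) hl
  have iLo := P365L.T2.X968.integrable_LossW (ν := fun x => ν (l x)) (F := F) (E := E)
    hA (he l) hl
  have iB := P365L.T2.X968.integrable_BadW (ν := fun x => ν (l x)) (F := F) (E := E)
    hA (he l) hl
  have iR := (adm_resS hA F).integrable (m := fun x => ν (l x)) hsupp (E := E) (he l)
  have iBV := (adm_BadV hA (Z := fun V => ZB lam A E (w l) V)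
    (fun x => measurableSet_ZB (w l) x) F).integrable (m := fun x => ν (l x)) hsupp (E := E) (he l)
  have h3 := res_all (ν := fun x => ν (l x)) (F := F) (E := E) hA (he l) hl h1 h2
  have h4 : Ex (fun x => ν (l x)) E (e l) (fun V => SmV A F (ZB lam A E (w l) V) ε1 ε2 V) ≤
      KS ε1 ε2 * (Ex (fun x => ν (l x)) E (e l) (JSW A E lam (Mw (w l)) F ε1) +
        Ex (fun x => ν (l x)) E (e l) (MSW A E lam (Mw (w l)) F) +
        Ex (fun x => ν (l x)) E (e l) (LamSW A E lam (Mw (w l)) F ε1 ε2)) := by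
    have iJM : Integrable (fun v => JSW A E lam (Mw (w l)) F ε1 (WV E (e l) v) +
        MSW A E lam (Mw (w l)) F (WV E (e l) v)) (Measure.pi fun x => ν (l x)) := iJ.add iM
    unfold Ex
    rw [← integral_add iJ iM, ← integral_add iJM iL, ← integral_const_mul]
    refine integral_mono_of_nonneg (Filter.Eventually.of_forall fun v =>
      SmV_nonneg hA (WV_neg (he l) v) F _ h1.le h2.le)
      ((iJM.add iL).const_mul _) (Filter.Eventually.of_forall fun v => ?_)
    exact SmV_le hA (WV_neg (he l) v) h1 h2 (w l)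
  have h5 : Ex (fun x => ν (l x)) E (e l) (LossW A (Mw (w l)) F) ≤
      Ex (fun x => ν (l x)) E (e l) (fun V => resS A F V) :=
    integral_mono iLo iR fun v => LossW_le_resS hA (WV_neg (he l) v)
  have h6 : Ex (fun x => ν (l x)) E (e l) (BadW A E lam (Mw (w l)) F) ≤
      Ex (fun x => ν (l x)) E (e l) (fun V => BadV A F (ZB lam A E (w l) V) V) :=
    integral_mono iB iBV fun v => BadW_le_BadV hA (WV_neg (he l) v) (w l)
  calc Ex (fun x => ν (l x)) E (e l) (fun V => SmV A F (ZB lam A E (w l) V) ε1 ε2 V)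
      ≤ KS ε1 ε2 * ((CJ lam a b ε1 + 1 + CLam lam a b ε1 ε2) *
          (Ex (fun x => ν (l x)) E (e l) (LossW A (Mw (w l)) F) +
            Ex (fun x => ν (l x)) E (e l) (BadW A E lam (Mw (w l)) F))) :=
        h4.trans (mul_le_mul_of_nonneg_left h3 hK.le)
    _ ≤ KS ε1 ε2 * ((CJ lam a b ε1 + 1 + CLam lam a b ε1 ε2) *
          (Ex (fun x => ν (l x)) E (e l) (fun V => resS A F V) +
            Ex (fun x => ν (l x)) E (e l) (fun V => BadV A F (ZB lam A E (w l) V) V))) :=
        mul_le_mul_of_nonneg_left (mul_le_mul_of_nonneg_left (add_le_add h5 h6) hC) hK.le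
    _ = _ := by ring

end av

/-! ### a stage -/

section stw

variable {N : ℕ} [NeZero N] {W : StW N} {lam E C1 η : ℝ}

/-- the energy of 259's bad set is 862's `BE` -/
theorem BadV_eq_BE {κ : Type} [Fintype κ] (F : κ → Tor N → ℝ) (l : Tor N → W.Λ)
    {V : Tor N → ℂ} (hV : ∀ x, (V x).im < 0) :
    BadV (AT N) F (ZX W lam E l V) V = BE W lam E F l V := by
  classical
  have h1 : ZX W lam E l V = Zb W lam E l V := by
    ext x
    unfold ZX Zb
    rw [mem_ZB, Finset.mem_filter]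
    simp only [Finset.mem_univ, true_and, not_and_or, not_not]
  unfold BadV BE
  rw [h1]
  exact Finset.sum_congr rfl fun x _ => eng_eq_Mf (AT_symm N) hV F x

/-- the static share of the truncated family -/
theorem ShS_fR_le (h : W.Ok lam E C1 η) (J : ℕ) (τ : ℝ) :
    ShS W E (fR N J) τ ≤ 4 ^ J * W.EM E W.u τ := by
  have hL := laws h
  unfold ShS StW.EM StW.Av
  rw [← AvG_const_mul]
  refine AvG_mono hL (eT_pos h τ) (fun l => ?_) (fun l => ?_) fun l V hV => ?_
  · exact Adm.sum _ fun x _ => Adm.const_mul _ (Adm.sum _ fun k _ => adm_Mf (AT_symm N) _ x)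
  · exact Adm.const_mul _ (Adm.sum _ fun x _ => Adm.const_mul _ (adm_mm (AT_symm N) x))
  · rw [Finset.mul_sum]
    refine Finset.sum_le_sum fun x _ => ?_
    rw [mul_left_comm]
    refine mul_le_mul_of_nonneg_left ?_ (u_nonneg h l x)
    rw [P365L.mm_eq (AT_symm N) hV x, Finset.mul_sum]
    unfold Mf
    rw [Finset.sum_comm]
    refine Finset.sum_le_sum fun a _ => ?_
    rw [← Finset.mul_sum, mul_comm]
    refine mul_le_mul_of_nonneg_right ?_ (mul_nonneg (by linarith [hV a]) (KK_nonneg _ _))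
    have h2 := ttR_le (J := J) a x
    rwa [ttR_eq, ← fR_spec] at h2

/-- the loss of the truncated family is at most the loss of the union family -/
theorem LossF_fR_le (h : W.Ok lam E C1 η) (J : ℕ) (τ : ℝ) :
    W.LossF E (fR N J) τ ≤ W.LossF E (uF N J) τ := by
  haveI := h.prob
  unfold StW.LossF uF
  rw [LossG_elim]
  refine le_add_of_nonneg_left ?_
  unfold LossG
  refine Finset.sum_nonneg fun l _ => mul_nonneg (Finset.prod_nonneg fun x _ => h.p_nonneg _)
    (Finset.sum_nonneg fun x _ => mul_nonneg (mul_nonneg (Real.exp_pos _).le (h.w_nonneg l x))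
      (Finset.sum_nonneg fun k _ => integral_nonneg fun v => ?_))
  unfold lossS
  exact mul_nonneg zero_le_two (mul_nonneg
    (mm_pos (AT_symm N) (WV_neg (eT_pos h τ l) v) x).le (sq_nonneg _))

/-- the off-resonant energy of the truncated family is at most that of the union family -/
theorem Yg_fR_le (h : W.Ok lam E C1 η) (J : ℕ) (τ : ℝ) :
    W.Yg E (fR N J) τ ≤ W.Yg E (uF N J) τ := by
  haveI := h.prob
  unfold StW.Yg uF
  rw [YG_elim]
  refine le_add_of_nonneg_left ?_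
  unfold YG
  exact Finset.sum_nonneg fun l _ => mul_nonneg (Finset.prod_nonneg fun x _ => h.p_nonneg _)
    (Finset.sum_nonneg fun x _ => mul_nonneg (mul_nonneg (Real.exp_pos _).le (h.w_nonneg l x))
      (Finset.sum_nonneg fun k _ => integral_nonneg fun v => Yf_nonneg (WV_neg (eT_pos h τ l) v) _ x))

theorem Yg_nonneg' (h : W.Ok lam E C1 η) {κ : Type} [Fintype κ] (F : κ → Tor N → ℝ) (τ : ℝ) :
    0 ≤ W.Yg E F τ := by
  haveI := h.prob
  unfold StW.Yg YG
  exact Finset.sum_nonneg fun l _ => mul_nonneg (Finset.prod_nonneg fun x _ => h.p_nonneg _)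
    (Finset.sum_nonneg fun x _ => mul_nonneg (mul_nonneg (Real.exp_pos _).le (h.w_nonneg l x))
      (Finset.sum_nonneg fun k _ => integral_nonneg fun v => Yf_nonneg (WV_neg (eT_pos h τ l) v) _ x))

theorem LossF_nonneg' (h : W.Ok lam E C1 η) {κ : Type} [Fintype κ] (F : κ → Tor N → ℝ) (τ : ℝ) :
    0 ≤ W.LossF E F τ := by
  haveI := h.prob
  unfold StW.LossF LossG
  refine Finset.sum_nonneg fun l _ => mul_nonneg (Finset.prod_nonneg fun x _ => h.p_nonneg _)
    (Finset.sum_nonneg fun x _ => mul_nonneg (mul_nonneg (Real.exp_pos _).le (h.w_nonneg l x))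
      (Finset.sum_nonneg fun k _ => integral_nonneg fun v => ?_))
  unfold lossS
  exact mul_nonneg zero_le_two (mul_nonneg
    (mm_pos (AT_symm N) (WV_neg (eT_pos h τ l) v) x).le (sq_nonneg _))

theorem EM_u_nonneg (h : W.Ok lam E C1 η) (τ : ℝ) : 0 ≤ W.EM E W.u τ := by
  unfold StW.EM StW.Av
  exact AvG_nonneg (laws h) (eT_pos h τ) fun l V hV => Finset.sum_nonneg fun x _ =>
    mul_nonneg (u_nonneg h l x) (mm_pos (AT_symm N) hV x).le

theorem M4_nonneg' (h : W.Ok lam E C1 η) (τ : ℝ) : 0 ≤ W.M4 E τ := by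
  unfold StW.M4 StW.Av
  refine AvG_nonneg (laws h) (eT_pos h τ) fun l V hV => Finset.sum_nonneg fun x _ =>
    Finset.sum_nonneg fun y _ => mul_nonneg (mul_nonneg (mul_nonneg (by linarith [hV x])
      (by linarith [hV y])) (KK_nonneg _ _)) (sq_nonneg _)

/-- the constant of `res` -/
noncomputable def CRes (lam E ε1 ε2 : ℝ) : ℝ :=
  KS ε1 ε2 * (CJ lam (aS lam) (bS lam) ε1 + 1 + CLam lam (aS lam) (bS lam) ε1 ε2) *
    (2 + CBE lam (bS lam) E)

theorem CRes_pos {ε1 ε2 : ℝ} (hlam : 0 < lam) (h1 : 0 < ε1) (h2 : 0 < ε2) :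
    0 < CRes lam E ε1 ε2 := by
  have c0 := KS_pos h1 h2
  have c1 := CJ_nonneg (lam := lam) (al := aS lam) (be := bS lam) h1
  have c2 := CLam_nonneg (lam := lam) (al := aS lam) (be := bS lam) h1 h2
  have c3 := CBE_nonneg hlam.le (bS_pos hlam).le E
  unfold CRes
  positivity

/-- **`res` for a stage** -/
theorem SmX_le (hlam : 0 < lam) (h : W.Ok lam E C1 η) {ε1 ε2 : ℝ} (h1 : 0 < ε1) (h2 : 0 < ε2)
    (τ : ℝ) : SmX W lam E C1 ε1 ε2 τ ≤ CRes lam E ε1 ε2 * (LossX W E C1 τ + ErrX W E C1 τ) := by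
  have hN : (0 : ℝ) < (N : ℝ) ^ 2 := by
    have : (0 : ℝ) < (N : ℝ) := Nat.cast_pos.2 (Nat.pos_of_ne_zero (NeZero.ne N))
    positivity
  set J := nJ C1 W.S with hJ
  set F := fR N J with hF
  have hL := laws h
  have hlaw : ∀ l x, W.w l x ≠ 0 → EdgeLaw lam (aS lam) (bS lam) (W.ν (l x)) := fun l x hx =>
    edgeLaw_mov hlam h hx
  have c0 := KS_pos h1 h2
  have c1 := CJ_nonneg (lam := lam) (al := aS lam) (be := bS lam) h1
  have c2 := CLam_nonneg (lam := lam) (al := aS lam) (be := bS lam) h1 h2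
  have c3 := CBE_nonneg hlam.le (bS_pos hlam).le E
  have g1 := AvG_SmV_le (F := F) (E := E) (AT_symm N) hL (e := eT W.u W.w τ) (w := W.w)
    (eT_pos h τ) hlaw h1 h2
  have g2 := res_split h τ F
  have g3 := bad_stage hlam h F τ
  have g4 := ShS_fR_le h J τ
  have g5 := LossF_fR_le h J τ
  have g6 := Yg_fR_le h J τ
  have g7 : AvG W.p W.ν E (eT W.u W.w τ)
      (fun l V => BadV (AT N) F (ZB lam (AT N) E (W.w l) V) V) =
      W.Av E τ (fun l V => BE W lam E F l V) := by
    unfold StW.Av AvG Ex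
    refine Finset.sum_congr rfl fun l _ => ?_
    congr 1
    refine integral_congr_ae (Filter.Eventually.of_forall fun v => ?_)
    exact BadV_eq_BE F l (WV_neg (eT_pos h τ l) v)
  have n1 := LossF_nonneg' h (uF N J) τ
  have n2 := Yg_nonneg' h (uF N J) τ
  have n3 := EM_u_nonneg h τ
  have n4 := M4_nonneg' h τ
  have hJJ : (4 : ℝ) ^ J ≤ 16 ^ J := pow_le_pow_left₀ (by norm_num) (by norm_num) J
  have g8 : ShS W E F τ ≤ 16 ^ J * W.EM E W.u τ :=
    g4.trans (mul_le_mul_of_nonneg_right hJJ n3)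
  have n5 : 0 ≤ W.M4 E τ / 4 ^ J := by positivity
  set X := W.LossF E (uF N J) τ with hX
  set Y := W.Yg E (uF N J) τ with hY
  set U := (16 : ℝ) ^ J * W.EM E W.u τ with hU
  have nU : 0 ≤ U := by positivity
  have g9 : AvG W.p W.ν E (eT W.u W.w τ) (fun _ V => resS (AT N) F V) +
      AvG W.p W.ν E (eT W.u W.w τ) (fun l V => BadV (AT N) F (ZB lam (AT N) E (W.w l) V) V) ≤
      (2 + CBE lam (bS lam) E) * (X + (Y + U)) := by
    have a1 : AvG W.p W.ν E (eT W.u W.w τ) (fun _ V => resS (AT N) F V) ≤ X / 2 + U :=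
      g2.trans (by linarith)
    have a2 : AvG W.p W.ν E (eT W.u W.w τ)
        (fun l V => BadV (AT N) F (ZB lam (AT N) E (W.w l) V) V) ≤
        U + CBE lam (bS lam) E * Y := by
      rw [g7]
      exact g3.trans (add_le_add g8 (mul_le_mul_of_nonneg_left g6 c3))
    nlinarith [mul_nonneg c3 n1, mul_nonneg c3 nU]
  have g10 : AvG W.p W.ν E (eT W.u W.w τ)
      (fun l V => SmV (AT N) F (ZB lam (AT N) E (W.w l) V) ε1 ε2 V) ≤
      CRes lam E ε1 ε2 * (X + (Y + U)) := by
    refine g1.trans ?_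
    unfold CRes
    rw [mul_assoc (KS ε1 ε2 * (CJ lam (aS lam) (bS lam) ε1 + 1 +
      CLam lam (aS lam) (bS lam) ε1 ε2))]
    exact mul_le_mul_of_nonneg_left g9 (by positivity)
  have hC := CRes_pos (E := E) hlam h1 h2
  have g11 : SmX W lam E C1 ε1 ε2 τ ≤ CRes lam E ε1 ε2 * (X + (Y + U)) / (N : ℝ) ^ 2 :=
    div_le_div_of_nonneg_right g10 hN.le
  refine g11.trans ?_
  rw [mul_div_assoc]
  refine mul_le_mul_of_nonneg_left ?_ hC.le
  unfold LossX ErrX
  rw [← hJ, ← hX, ← hY, ← hU, add_div]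
  have : (Y + U) / (N : ℝ) ^ 2 ≤ (Y + U + W.M4 E τ / 4 ^ J) / (N : ℝ) ^ 2 + 1 / |W.S| := by
    have b1 : (Y + U) / (N : ℝ) ^ 2 ≤ (Y + U + W.M4 E τ / 4 ^ J) / (N : ℝ) ^ 2 :=
      div_le_div_of_nonneg_right (by linarith) hN.le
    have b2 : 0 ≤ 1 / |W.S| := by positivity
    linarith
  have b3 : 0 ≤ 192 * (4 : ℝ) ^ J / (N : ℝ) := by positivity
  linarith

end stw

/-! ### the field `res` -/

/-- **field `res` of `OneFacts2` over the states of 629** -/
theorem res_Sta {lam E C1 : ℝ} (hlam : 0 < lam) : ∀ θ : ℝ, 0 < θ → θ ≤ 1 →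
    ∀ ε₁ : ℝ, 0 < ε₁ → ε₁ ≤ 1 → ∀ ε₂ : ℝ, 0 < ε₂ → ε₂ ≤ 1 → ∃ C : ℝ, 0 < C ∧
      ∀ s : Sta lam E C1, SmX s.W lam E C1 ε₁ ε₂ s.τ ≤ C * (s.Loss + s.Err) :=
  fun _ _ _ ε₁ h1 _ ε₂ h2 _ => ⟨CRes lam E ε₁ ε₂, CRes_pos hlam h1 h2, fun s =>
    SmX_le hlam s.ok h1 h2 s.τ⟩

end P365T2.H863
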