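import Vale.Agent.P365.T2.H259.One
import Vale.Agent.P365.T2.H863.Res

/-!
# P365-T2: 259's fact `ResF` (helper863)
-/

namespace P365T2.H863

/-- **(res), literal form of 259** -/
theorem resF {lam E C1 : ℝ} (hlam : 0 < lam) : P365T2.H259.ResF lam E C1 :=
  fun ε1 h1 _ ε2 h2 _ => ⟨CRes lam E ε1 ε2, CRes_pos hlam h1 h2, fun _ _ _ h τ _ =>
    SmX_le hlam h h1 h2 τ⟩

end P365T2.H863
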